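import Mathlib

namespace Vale.Agent.Results.P344.DFTThreeN

open Finset Classical Polynomial

/-- `Circuit n s S`: there is a linear circuit on the inputs `x_0, ..., x_{n-1}` (and the constant `0`)
with exactly `s` gates whose set of computed values is `S`.  A linear form is represented by its
coefficient vector in `Fin n → ℂ`; every gate computes `u + v`, `u - v` or `c • u` from
previously computed values `u, v` and costs one. -/
inductive Circuit (n : ℕ) : ℕ → Set (Fin n → ℂ) → Prop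
  | init : Circuit n 0 (insert 0 (Set.range fun i : Fin n => (Pi.single i 1 : Fin n → ℂ)))
  | add {s : ℕ} {S : Set (Fin n → ℂ)} (u v : Fin n → ℂ) :
      Circuit n s S → u ∈ S → v ∈ S → Circuit n (s + 1) (insert (u + v) S)
  | sub {s : ℕ} {S : Set (Fin n → ℂ)} (u v : Fin n → ℂ) :
      Circuit n s S → u ∈ S → v ∈ S → Circuit n (s + 1) (insert (u - v) S)
  | smul {s : ℕ} {S : Set (Fin n → ℂ)} (c : ℂ) (u : Fin n → ℂ) :
      Circuit n s S → u ∈ S → Circuit n (s + 1) (insert (c • u) S)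

/-- Row `j` of the unnormalised DFT matrix `F_n = (exp (2 π i j k / n))_{j,k}`. -/
noncomputable def dftRow (n : ℕ) (j : Fin n) : Fin n → ℂ :=
  fun k => Complex.exp (2 * Real.pi * Complex.I * (((j : ℕ) : ℂ) * ((k : ℕ) : ℂ)) / (n : ℂ))

/-- additive invariant -/
def InvA (n : ℕ) (S : Set (Fin n → ℂ)) (a : ℕ) : Prop :=
  ∃ (r : Fin n → Fin n) (B : Finset (Fin n → ℂ)),
    (∀ u ∈ S, ∀ x y, u x ≠ 0 → u y ≠ 0 → r x = r y) ∧
    (∀ u ∈ S, (∀ x, u x ≠ 0) → ∃ b ∈ B, ∃ c : ℂ, u = c • b) ∧
    n ≤ (univ.image r).card + a ∧ n + B.card ≤ (univ.image r).card + a + 1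

/-- the rational unit vectors -/
def unitVecs (n : ℕ) : Set (Fin n → ℂ) := Set.range fun i : Fin n => (Pi.single i 1 : Fin n → ℂ)

/-- multiplicative invariant -/
def InvM (n : ℕ) (S : Set (Fin n → ℂ)) (m : ℕ) : Prop :=
  ∃ L : Finset (Fin n → ℂ), L.card ≤ m ∧
    S ⊆ (Submodule.span ℚ (unitVecs n ∪ (L : Set (Fin n → ℂ))) : Set (Fin n → ℂ))

lemma invA_init (n : ℕ) (hn : 2 ≤ n) : InvA n (insert 0 (unitVecs n)) 0 := by
  refine ⟨id, ∅, ?_, ?_, ?_, ?_⟩
  · intro u hu x y hx hy
    rcases hu with rfl | ⟨i, rfl⟩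
    · exact absurd rfl hx
    · have h1 : x = i := by
        by_contra h
        exact hx (by simp [h])
      have h2 : y = i := by
        by_contra h
        exact hy (by simp [h])
      simp [h1, h2]
  · intro u hu hfull
    exfalso
    rcases hu with rfl | ⟨i, rfl⟩
    · exact hfull ⟨0, by omega⟩ rfl
    · obtain ⟨x, hx⟩ : ∃ x : Fin n, x ≠ i := by
        by_cases h0 : (i : ℕ) = 0
        · refine ⟨⟨1, by omega⟩, ?_⟩
          intro h
          rw [← h] at h0
          simp at h0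
        · refine ⟨⟨0, by omega⟩, ?_⟩
          intro h
          rw [← h] at h0
          simp at h0
      exact hfull x (by simp [hx])
  · simp
  · simp

lemma invA_binary {n : ℕ} {S : Set (Fin n → ℂ)} {a : ℕ} (h : InvA n S a) (u v w : Fin n → ℂ)
    (hu : u ∈ S) (hv : v ∈ S) (hw : ∀ x, w x ≠ 0 → u x ≠ 0 ∨ v x ≠ 0) :
    InvA n (insert w S) (a + 1) := by
  obtain ⟨r, B, h1, h2, h3, h4⟩ := h
  by_cases hm : ∃ i j, u i ≠ 0 ∧ v j ≠ 0 ∧ r i ≠ r j
  · obtain ⟨i, j, hi, hj, hij⟩ := hm
    refine ⟨fun x => if r x = r j then r i else r x, {w}, ?_, ?_, ?_, ?_⟩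
    · intro z hz x y hx hy
      rcases hz with rfl | hz
      · have key : ∀ x, z x ≠ 0 → (if r x = r j then r i else r x) = r i := by
          intro x hx
          rcases hw x hx with h | h
          · have : r x = r i := h1 u hu x i h hi
            rw [this, if_neg hij]
          · have : r x = r j := h1 v hv x j h hj
            rw [if_pos this]
        show (if r x = r j then r i else r x) = (if r y = r j then r i else r y)
        rw [key x hx, key y hy]
      · show (if r x = r j then r i else r x) = (if r y = r j then r i else r y)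
        rw [h1 z hz x y hx hy]
    · intro z hz hfull
      rcases hz with rfl | hz
      · exact ⟨z, by simp, 1, by simp⟩
      · exact absurd (h1 z hz i j (hfull i) (hfull j)) hij
    · have hsub : univ.image r ⊆ insert (r j) (univ.image fun x => if r x = r j then r i else r x) := by
        intro y hy
        obtain ⟨x, -, rfl⟩ := Finset.mem_image.1 hy
        by_cases hx : r x = r j
        · rw [hx]; exact Finset.mem_insert_self _ _
        · refine Finset.mem_insert_of_mem (Finset.mem_image.2 ⟨x, Finset.mem_univ _, ?_⟩)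
          rw [if_neg hx]
      have := (Finset.card_le_card hsub).trans (Finset.card_insert_le _ _)
      omega
    · have hsub : univ.image r ⊆ insert (r j) (univ.image fun x => if r x = r j then r i else r x) := by
        intro y hy
        obtain ⟨x, -, rfl⟩ := Finset.mem_image.1 hy
        by_cases hx : r x = r j
        · rw [hx]; exact Finset.mem_insert_self _ _
        · refine Finset.mem_insert_of_mem (Finset.mem_image.2 ⟨x, Finset.mem_univ _, ?_⟩)
          rw [if_neg hx]
      have := (Finset.card_le_card hsub).trans (Finset.card_insert_le _ _)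
      rw [Finset.card_singleton]
      omega
  · have hm' : ∀ i j, u i ≠ 0 → v j ≠ 0 → r i = r j := by
      intro i j hi hj
      by_contra hij
      exact hm ⟨i, j, hi, hj, hij⟩
    refine ⟨r, insert w B, ?_, ?_, ?_, ?_⟩
    · intro z hz x y hx hy
      rcases hz with rfl | hz
      · rcases hw x hx with hx' | hx' <;> rcases hw y hy with hy' | hy'
        · exact h1 u hu x y hx' hy'
        · exact hm' x y hx' hy'
        · exact (hm' y x hy' hx').symm
        · exact h1 v hv x y hx' hy'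
      · exact h1 z hz x y hx hy
    · intro z hz hfull
      rcases hz with rfl | hz
      · exact ⟨z, by simp, 1, by simp⟩
      · obtain ⟨b, hb, c, hc⟩ := h2 z hz hfull
        exact ⟨b, Finset.mem_insert_of_mem hb, c, hc⟩
    · omega
    · have := Finset.card_insert_le w B
      omega

lemma invA_smul {n : ℕ} {S : Set (Fin n → ℂ)} {a : ℕ} (h : InvA n S a) (c : ℂ) (u : Fin n → ℂ)
    (hu : u ∈ S) : InvA n (insert (c • u) S) a := by
  obtain ⟨r, B, h1, h2, h3, h4⟩ := h
  refine ⟨r, B, ?_, ?_, h3, h4⟩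
  · intro z hz x y hx hy
    rcases hz with rfl | hz
    · refine h1 u hu x y ?_ ?_
      · intro h0; apply hx; simp [h0]
      · intro h0; apply hy; simp [h0]
    · exact h1 z hz x y hx hy
  · intro z hz hfull
    rcases hz with rfl | hz
    · have hfu : ∀ x, u x ≠ 0 := by
        intro x h0
        apply hfull x
        simp [h0]
      obtain ⟨b, hb, d, hd⟩ := h2 u hu hfu
      exact ⟨b, hb, c * d, by rw [hd, smul_smul]⟩
    · exact h2 z hz hfull

lemma invM_binary {n : ℕ} {S : Set (Fin n → ℂ)} {m : ℕ} (h : InvM n S m) (w : Fin n → ℂ)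
    (hw : ∀ W : Submodule ℚ (Fin n → ℂ), S ⊆ (W : Set (Fin n → ℂ)) → w ∈ W) :
    InvM n (insert w S) m := by
  obtain ⟨L, hL, hS⟩ := h
  refine ⟨L, hL, ?_⟩
  intro z hz
  rcases hz with rfl | hz
  · exact hw _ hS
  · exact hS hz

lemma invM_smul {n : ℕ} {S : Set (Fin n → ℂ)} {m : ℕ} (h : InvM n S m) (w : Fin n → ℂ) :
    InvM n (insert w S) (m + 1) := by
  obtain ⟨L, hL, hS⟩ := h
  refine ⟨insert w L, ?_, ?_⟩
  · have := Finset.card_insert_le w L
    omega
  · intro z hz
    rcases hz with rfl | hz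
    · apply Submodule.subset_span
      right
      simp
    · have hmono : Submodule.span ℚ (unitVecs n ∪ (L : Set (Fin n → ℂ))) ≤
          Submodule.span ℚ (unitVecs n ∪ ((insert w L : Finset (Fin n → ℂ)) : Set (Fin n → ℂ))) := by
        apply Submodule.span_mono
        apply Set.union_subset_union_right
        intro y hy
        simp only [Finset.coe_insert]
        exact Set.mem_insert_of_mem _ hy
      exact hmono (hS hz)

lemma invariant {n s : ℕ} (hn : 2 ≤ n) {S : Set (Fin n → ℂ)} (h : Circuit n s S) :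
    ∃ a m : ℕ, a + m = s ∧ InvA n S a ∧ InvM n S m := by
  induction h with
  | init =>
    refine ⟨0, 0, rfl, invA_init n hn, ∅, by simp, ?_⟩
    intro z hz
    rcases hz with rfl | hz
    · exact Submodule.zero_mem _
    · exact Submodule.subset_span (Or.inl hz)
  | add u v _ hu hv ih =>
    obtain ⟨a, m, hs, hA, hM⟩ := ih
    refine ⟨a + 1, m, by omega, invA_binary hA u v _ hu hv ?_, invM_binary hM _ ?_⟩
    · intro x hx
      by_contra hcon
      rw [not_or, not_not, not_not] at hcon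
      apply hx
      simp [hcon.1, hcon.2]
    · intro W hW
      exact W.add_mem (hW hu) (hW hv)
  | sub u v _ hu hv ih =>
    obtain ⟨a, m, hs, hA, hM⟩ := ih
    refine ⟨a + 1, m, by omega, invA_binary hA u v _ hu hv ?_, invM_binary hM _ ?_⟩
    · intro x hx
      by_contra hcon
      rw [not_or, not_not, not_not] at hcon
      apply hx
      simp [hcon.1, hcon.2]
    · intro W hW
      exact W.sub_mem (hW hu) (hW hv)
  | smul c u _ hu ih =>
    obtain ⟨a, m, hs, hA, hM⟩ := ih
    exact ⟨a, m + 1, by omega, invA_smul hA c u hu, invM_smul hM _⟩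

lemma aeval_eq_zero_of_orderOf_eq {μ μ' : ℂ} (h : orderOf μ = orderOf μ') (hpos : 0 < orderOf μ)
    (P : ℚ[X]) (hP : aeval μ P = 0) : aeval μ' P = 0 := by
  have h1 : IsPrimitiveRoot μ (orderOf μ) := IsPrimitiveRoot.orderOf μ
  have h2 : IsPrimitiveRoot μ' (orderOf μ) := h ▸ IsPrimitiveRoot.orderOf μ'
  have e1 := Polynomial.cyclotomic_eq_minpoly_rat h1 hpos
  have e2 := Polynomial.cyclotomic_eq_minpoly_rat h2 hpos
  have hd : minpoly ℚ μ ∣ P := minpoly.dvd ℚ μ hP
  rw [← e1, e2] at hd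
  obtain ⟨Q, rfl⟩ := hd
  simp [minpoly.aeval]

lemma geom_zero {n : ℕ} {μ : ℂ} (h1 : μ ^ n = 1) (h2 : μ ≠ 1) : ∑ k : Fin n, μ ^ (k : ℕ) = 0 := by
  rw [Fin.sum_univ_eq_sum_range (fun k => μ ^ k) n]
  have := geom_sum_mul μ n
  rw [h1, sub_self] at this
  rcases mul_eq_zero.1 this with h | h
  · exact h
  · exact absurd (sub_eq_zero.1 h) h2

lemma inversion {n : ℕ} {ζ : ℂ} (hζ : IsPrimitiveRoot ζ n) (c : Fin n → ℂ) (l : Fin n) :
    ∑ k : Fin n, (∑ j : Fin n, c j * ζ ^ ((j : ℕ) * (k : ℕ))) * (ζ⁻¹ ^ (l : ℕ)) ^ (k : ℕ) = n * c l := by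
  have hn : 0 < n := l.pos
  have hζ0 : ζ ≠ 0 := hζ.ne_zero hn.ne'
  have step : ∀ k : Fin n, (∑ j : Fin n, c j * ζ ^ ((j : ℕ) * (k : ℕ))) * (ζ⁻¹ ^ (l : ℕ)) ^ (k : ℕ)
      = ∑ j : Fin n, c j * (ζ ^ (j : ℕ) * ζ⁻¹ ^ (l : ℕ)) ^ (k : ℕ) := by
    intro k
    rw [Finset.sum_mul]
    refine Finset.sum_congr rfl (fun j _ => ?_)
    rw [mul_pow, pow_mul, mul_assoc]
  rw [Finset.sum_congr rfl (fun k _ => step k), Finset.sum_comm]
  have step2 : ∀ j : Fin n, ∑ k : Fin n, c j * (ζ ^ (j : ℕ) * ζ⁻¹ ^ (l : ℕ)) ^ (k : ℕ)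
      = if j = l then n * c l else 0 := by
    intro j
    rw [← Finset.mul_sum]
    split_ifs with hjl
    · subst hjl
      have : ζ ^ (j : ℕ) * ζ⁻¹ ^ (j : ℕ) = 1 := by
        rw [← mul_pow, mul_inv_cancel₀ hζ0, one_pow]
      rw [this]
      simp [mul_comm]
    · rw [geom_zero, mul_zero]
      · rw [mul_pow, ← pow_mul, ← pow_mul, mul_comm (j : ℕ), mul_comm (l : ℕ), pow_mul, pow_mul,
          inv_pow, hζ.pow_eq_one]
        simp
      · intro h
        apply hjl
        have h' : ζ ^ (j : ℕ) = ζ ^ (l : ℕ) := by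
          rw [inv_pow] at h
          field_simp at h
          exact h
        exact Fin.ext (hζ.pow_inj j.isLt l.isLt h')
  rw [Finset.sum_congr rfl (fun j _ => step2 j)]
  simp

lemma classFn {n : ℕ} {ζ : ℂ} (hζ : IsPrimitiveRoot ζ n) (a c : Fin n → ℚ)
    (h : ∀ k : Fin n, (a k : ℂ) + ∑ j : Fin n, (c j : ℂ) * ζ ^ ((j : ℕ) * (k : ℕ)) = 0)
    (l l' : Fin n) (hl : orderOf (ζ⁻¹ ^ (l : ℕ)) = orderOf (ζ⁻¹ ^ (l' : ℕ))) : c l = c l' := by
  have hn : 0 < n := l.pos
  have hw : ∀ k : Fin n, ∑ j : Fin n, (c j : ℂ) * ζ ^ ((j : ℕ) * (k : ℕ)) = ((-a k : ℚ) : ℂ) := by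
    intro k
    have := h k
    push_cast
    linear_combination this
  have inv1 := inversion hζ (fun j => (c j : ℂ)) l
  have inv2 := inversion hζ (fun j => (c j : ℂ)) l'
  simp only [hw] at inv1 inv2
  set P : ℚ[X] := ∑ k : Fin n, C (-a k) * X ^ (k : ℕ) - C ((n : ℚ) * c l) with hP
  have ev : ∀ μ : ℂ, aeval μ P = ∑ k : Fin n, ((-a k : ℚ) : ℂ) * μ ^ (k : ℕ) - (n : ℂ) * c l := by
    intro μ
    simp [hP, map_sum]
  have h0 : aeval (ζ⁻¹ ^ (l : ℕ)) P = 0 := by
    rw [ev, inv1, sub_self]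
  have hpos : 0 < orderOf (ζ⁻¹ ^ (l : ℕ)) := by
    apply orderOf_pos_iff.2
    rw [isOfFinOrder_iff_pow_eq_one]
    refine ⟨n, hn, ?_⟩
    rw [← pow_mul, mul_comm, pow_mul, inv_pow, hζ.pow_eq_one]
    simp
  have h1 := aeval_eq_zero_of_orderOf_eq hl hpos P h0
  rw [ev, inv2] at h1
  have hn' : (n : ℂ) ≠ 0 := by exact_mod_cast hn.ne'
  have h2 : (c l' : ℂ) = c l := by
    have : (n : ℂ) * ((c l' : ℂ) - c l) = 0 := by linear_combination h1
    rcases mul_eq_zero.1 this with h | h
    · exact absurd h hn'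
    · exact sub_eq_zero.1 h
  exact_mod_cast h2.symm

/-- the rational-linear map `(a, c) ↦ a + F c` -/
noncomputable def T (n : ℕ) (ζ : ℂ) : ((Fin n → ℚ) × (Fin n → ℚ)) →ₗ[ℚ] (Fin n → ℂ) where
  toFun p := fun k => (p.1 k : ℂ) + ∑ j : Fin n, (p.2 j : ℂ) * ζ ^ ((j : ℕ) * (k : ℕ))
  map_add' := by
    intro p q
    ext k
    simp only [Prod.fst_add, Prod.snd_add, Pi.add_apply, Rat.cast_add, add_mul,
      Finset.sum_add_distrib]
    ring
  map_smul' := by
    intro q p
    ext k
    simp only [Prod.smul_fst, Prod.smul_snd, Pi.smul_apply, smul_eq_mul, Rat.cast_mul,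
      RingHom.id_apply, Rat.smul_def, mul_add, Finset.mul_sum, mul_assoc]

lemma T_apply (n : ℕ) (ζ : ℂ) (p : (Fin n → ℚ) × (Fin n → ℚ)) (k : Fin n) :
    T n ζ p k = (p.1 k : ℂ) + ∑ j : Fin n, (p.2 j : ℂ) * ζ ^ ((j : ℕ) * (k : ℕ)) := rfl

lemma mulBound {n : ℕ} (hn : 0 < n) {ζ : ℂ} (hζ : IsPrimitiveRoot ζ n) (L : Finset (Fin n → ℂ))
    (hrows : ∀ j : Fin n, (fun k : Fin n => ζ ^ ((j : ℕ) * (k : ℕ))) ∈
      Submodule.span ℚ (unitVecs n ∪ (L : Set (Fin n → ℂ)))) :
    n ≤ L.card + n.divisors.card := by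
  set U := Submodule.span ℚ (unitVecs n ∪ (L : Set (Fin n → ℂ))) with hU
  have hset : unitVecs n ∪ (L : Set (Fin n → ℂ)) =
      ((univ.image (fun i : Fin n => (Pi.single i 1 : Fin n → ℂ)) ∪ L : Finset (Fin n → ℂ)) :
        Set (Fin n → ℂ)) := by
    simp [unitVecs]
  have hfin : Module.Finite ℚ U := by
    rw [hU, hset]
    exact Module.Finite.span_finset ℚ _
  have hUrank : Module.finrank ℚ U ≤ n + L.card := by
    have h1 := finrank_span_finset_le_card (R := ℚ)
      (univ.image (fun i : Fin n => (Pi.single i 1 : Fin n → ℂ)) ∪ L)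
    rw [Set.finrank, ← hset] at h1
    refine h1.trans ((Finset.card_union_le _ _).trans ?_)
    have := Finset.card_image_le (s := (univ : Finset (Fin n)))
      (f := fun i : Fin n => (Pi.single i 1 : Fin n → ℂ))
    simp only [Finset.card_univ, Fintype.card_fin] at this
    omega
  have hrange : LinearMap.range (T n ζ) ≤ U := by
    rintro _ ⟨p, rfl⟩
    have e : T n ζ p = ∑ i : Fin n, (p.1 i) • (Pi.single i 1 : Fin n → ℂ) +
        ∑ j : Fin n, (p.2 j) • (fun k : Fin n => ζ ^ ((j : ℕ) * (k : ℕ))) := by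
      ext k
      rw [T_apply]
      simp only [Pi.add_apply, Finset.sum_apply, Pi.smul_apply, Rat.smul_def]
      congr 1
      rw [Finset.sum_eq_single k]
      · simp
      · intro b _ hb
        simp [hb.symm]
      · simp
    rw [e]
    refine U.add_mem (U.sum_mem fun i _ => U.smul_mem _ ?_) (U.sum_mem fun j _ => U.smul_mem _ (hrows j))
    exact Submodule.subset_span (Or.inl ⟨i, rfl⟩)
  have hr : Module.finrank ℚ (LinearMap.range (T n ζ)) ≤ n + L.card :=
    (Submodule.finrank_mono hrange).trans hUrank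
  -- kernel
  have hcl : ∀ j : Fin n, orderOf (ζ⁻¹ ^ (j : ℕ)) ∈ n.divisors := by
    intro j
    rw [Nat.mem_divisors]
    refine ⟨orderOf_dvd_of_pow_eq_one ?_, hn.ne'⟩
    rw [← pow_mul, mul_comm, pow_mul, inv_pow, hζ.pow_eq_one]
    simp
  let G : (n.divisors → ℚ) →ₗ[ℚ] (Fin n → ℚ) :=
    LinearMap.funLeft ℚ ℚ (fun j : Fin n => (⟨orderOf (ζ⁻¹ ^ (j : ℕ)), hcl j⟩ : n.divisors))
  let π : LinearMap.ker (T n ζ) →ₗ[ℚ] (Fin n → ℚ) :=
    (LinearMap.snd ℚ (Fin n → ℚ) (Fin n → ℚ)).comp (LinearMap.ker (T n ζ)).subtype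
  have hπinj : Function.Injective π := by
    rw [← LinearMap.ker_eq_bot, LinearMap.ker_eq_bot']
    rintro ⟨⟨a, c⟩, hp⟩ h0
    have hc : c = 0 := h0
    subst hc
    have ha : a = 0 := by
      ext k
      have := congrFun (LinearMap.mem_ker.1 hp) k
      rw [T_apply] at this
      simpa using this
    subst ha
    rfl
  have hπrange : LinearMap.range π ≤ LinearMap.range G := by
    rintro _ ⟨⟨⟨a, c⟩, hp⟩, rfl⟩
    have hc : ∀ l l' : Fin n, orderOf (ζ⁻¹ ^ (l : ℕ)) = orderOf (ζ⁻¹ ^ (l' : ℕ)) → c l = c l' := by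
      intro l l' hl
      refine classFn hζ a c ?_ l l' hl
      intro k
      have := congrFun (LinearMap.mem_ker.1 hp) k
      rw [T_apply] at this
      simpa using this
    refine ⟨fun d => if h : ∃ l : Fin n, orderOf (ζ⁻¹ ^ (l : ℕ)) = d then c h.choose else 0, ?_⟩
    ext l
    show (if h : ∃ l' : Fin n, orderOf (ζ⁻¹ ^ (l' : ℕ)) = orderOf (ζ⁻¹ ^ (l : ℕ))
      then c h.choose else 0) = c l
    have hex : ∃ l' : Fin n, orderOf (ζ⁻¹ ^ (l' : ℕ)) = orderOf (ζ⁻¹ ^ (l : ℕ)) := ⟨l, rfl⟩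
    rw [dif_pos hex]
    exact hc _ _ hex.choose_spec
  have hk : Module.finrank ℚ (LinearMap.ker (T n ζ)) ≤ n.divisors.card := by
    rw [← LinearMap.finrank_range_of_inj hπinj]
    refine (Submodule.finrank_mono hπrange).trans ((LinearMap.finrank_range_le G).trans ?_)
    simp
  have hsum := LinearMap.finrank_range_add_finrank_ker (T n ζ)
  rw [Module.finrank_prod] at hsum
  simp only [Module.finrank_fin_fun] at hsum
  omega

lemma addBound {n : ℕ} (hn : 0 < n) {S : Set (Fin n → ℂ)} {a : ℕ} (h : InvA n S a)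
    (f : Fin n → (Fin n → ℂ)) (hf : ∀ j, f j ∈ S) (hfull : ∀ j x, f j x ≠ 0)
    (hprop : ∀ j j' (c : ℂ), f j = c • f j' → j = j') : 2 * n ≤ a + 2 := by
  obtain ⟨r, B, h1, h2, h3, h4⟩ := h
  have hc : (univ.image r).card ≤ 1 := by
    rw [Finset.card_le_one]
    intro x hx y hy
    obtain ⟨x', -, rfl⟩ := Finset.mem_image.1 hx
    obtain ⟨y', -, rfl⟩ := Finset.mem_image.1 hy
    exact h1 (f ⟨0, hn⟩) (hf _) x' y' (hfull _ _) (hfull _ _)
  choose g hg c hc' using fun j => h2 (f j) (hf j) (hfull j)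
  have hB : n ≤ B.card := by
    have : (univ : Finset (Fin n)).card ≤ B.card := by
      apply Finset.card_le_card_of_injOn g (fun j _ => hg j)
      intro j _ j' _ hjj'
      have hne : c j' ≠ 0 := by
        intro h0
        have := hc' j'
        rw [h0, zero_smul] at this
        exact hfull j' ⟨0, hn⟩ (by rw [this]; rfl)
      apply hprop j j' (c j * (c j')⁻¹)
      rw [hc' j, hc' j', smul_smul, hjj', mul_assoc, inv_mul_cancel₀ hne, mul_one]
    simpa using this
  omega

lemma dftRow_eq (n : ℕ) (j k : Fin n) :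
    dftRow n j k = (Complex.exp (2 * Real.pi * Complex.I / n)) ^ ((j : ℕ) * (k : ℕ)) := by
  unfold dftRow
  rw [← Complex.exp_nat_mul]
  congr 1
  push_cast
  ring

lemma card_divisors_le_two_sqrt (n : ℕ) : n.divisors.card ≤ 2 * Nat.sqrt n := by
  set r := Nat.sqrt n with hr
  have hsplit : n.divisors = (n.divisors.filter (fun d => d ≤ r)) ∪ (n.divisors.filter (fun d => ¬ d ≤ r)) := by
    rw [Finset.filter_union_filter_not_eq]
  have hA : (n.divisors.filter (fun d => d ≤ r)).card ≤ r := by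
    have : n.divisors.filter (fun d => d ≤ r) ⊆ Finset.Icc 1 r := by
      intro d hd
      rw [Finset.mem_filter] at hd
      rw [Finset.mem_Icc]
      exact ⟨Nat.pos_of_mem_divisors hd.1, hd.2⟩
    simpa using Finset.card_le_card this
  have hB : (n.divisors.filter (fun d => ¬ d ≤ r)).card ≤ r := by
    have : (n.divisors.filter (fun d => ¬ d ≤ r)).card ≤ (Finset.Icc 1 r).card := by
      apply Finset.card_le_card_of_injOn (fun d => n / d)
      · intro d hd
        simp only [Finset.coe_filter, Set.mem_ofPred_eq, Nat.mem_divisors] at hd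
        obtain ⟨⟨⟨e, rfl⟩, hn0⟩, hdr⟩ := hd
        have hd0 : 0 < d := Nat.pos_of_ne_zero (by rintro rfl; simp at hn0)
        have he0 : 0 < e := Nat.pos_of_ne_zero (by rintro rfl; simp at hn0)
        simp only [Finset.coe_Icc, Set.mem_Icc]
        rw [Nat.mul_div_cancel_left _ hd0]
        refine ⟨he0, ?_⟩
        by_contra hcon
        have h1 : r + 1 ≤ d := by omega
        have h2 : r + 1 ≤ e := by omega
        have h3 : d * e < (r + 1) * (r + 1) := Nat.sqrt_lt.1 (by omega)
        have h4 : (r + 1) * (r + 1) ≤ d * e := Nat.mul_le_mul h1 h2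
        omega
      · intro d hd d' hd' h
        simp only [Finset.coe_filter, Set.mem_ofPred_eq, Nat.mem_divisors] at hd hd'
        obtain ⟨⟨hdn, hn0⟩, -⟩ := hd
        obtain ⟨⟨hdn', -⟩, -⟩ := hd'
        have h' : n / d = n / d' := h
        have e1 := Nat.div_mul_cancel hdn
        have e2 := Nat.div_mul_cancel hdn'
        have hq : 0 < n / d := Nat.div_pos (Nat.le_of_dvd (Nat.pos_of_ne_zero hn0) hdn)
          (Nat.pos_of_dvd_of_pos hdn (Nat.pos_of_ne_zero hn0))
        rw [← h'] at e2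
        exact Nat.eq_of_mul_eq_mul_left hq (e1.trans e2.symm)
    simpa using this
  calc n.divisors.card ≤ _ + _ := by rw [hsplit]; exact Finset.card_union_le _ _
    _ ≤ 2 * r := by omega


/-- Every linear circuit (gates `u + v`, `u - v`, `c • u` with arbitrary complex `c`, each of cost one)
computing the `n`-point DFT has at least `3 n - τ(n) - 2` gates, where `τ(n)` is the number of
divisors of `n`; in particular at least `3 n - 2 √n - 2` gates. -/
theorem result (n s : ℕ) (hn : 2 ≤ n) (S : Set (Fin n → ℂ)) (hC : Circuit n s S)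
    (hout : ∀ j : Fin n, dftRow n j ∈ S) :
    3 * n ≤ s + n.divisors.card + 2 ∧ 3 * n ≤ s + 2 * Nat.sqrt n + 2 := by
  have hn0 : 0 < n := by omega
  obtain ⟨a, m, hs, hA, L, hL, hS⟩ := invariant hn hC
  have hζ : IsPrimitiveRoot (Complex.exp (2 * Real.pi * Complex.I / n)) n :=
    Complex.isPrimitiveRoot_exp n hn0.ne'
  have h1 : 2 * n ≤ a + 2 := by
    refine addBound hn0 hA (dftRow n) hout ?_ ?_
    · intro j x
      exact Complex.exp_ne_zero _
    · intro j j' c h
      have e0 := congrFun h ⟨0, hn0⟩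
      have e1 := congrFun h ⟨1, by omega⟩
      simp only [Pi.smul_apply, smul_eq_mul, dftRow_eq] at e0 e1
      simp only [mul_zero, pow_zero, mul_one] at e0 e1
      rw [← e0, one_mul] at e1
      exact Fin.ext (hζ.pow_inj j.isLt j'.isLt e1)
  have h2 : n ≤ L.card + n.divisors.card := by
    refine mulBound hn0 hζ L ?_
    intro j
    have : (fun k : Fin n => (Complex.exp (2 * Real.pi * Complex.I / n)) ^ ((j : ℕ) * (k : ℕ)))
        = dftRow n j := by
      ext k
      rw [dftRow_eq]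
    rw [this]
    exact hS (hout j)
  have h3 := card_divisors_le_two_sqrt n
  constructor <;> omega

end Vale.Agent.Results.P344.DFTThreeN
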